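import Vale.Agent.P141.H958.WeakW

/-!
# P141, line (A): generations of the affected squares of a path with packing

`Inn i j`: the square `i` lies in the square `j`.  `gn N R S Q i`: the number of affected squares
which contain `i` (and `i` itself).

* `gn_lt`: an affected square strictly inside another one has a larger generation, so the
  affected squares of one generation are disjoint (`gen_unique`);
* `exists_anc`: every generation below is met;
* `tail_step`, `pack_gen`: the affected squares of generation larger than `lam` have total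
  area at most `B (1 - 1 / B) ^ lam 4 ^ N`.
-/

namespace Vale.Agent.P141.H268

open Finset
open Vale.Agent.P141.PL (iv ix mem_iv ix_ix)
open Vale.Agent.P141.H958 (Aff mem_Aff sum_Aff PackQ)

noncomputable section

open scoped Classical

/-- the square `i` lies in the square `j` -/
def Inn (i j : ℕ × ℤ × ℤ) : Prop :=
  i.1 ≤ j.1 ∧ ix (j.1 - i.1) i.2.1 = j.2.1 ∧ ix (j.1 - i.1) i.2.2 = j.2.2

theorem Inn.refl (i : ℕ × ℤ × ℤ) : Inn i i :=
  ⟨le_rfl, by rw [Nat.sub_self, PL.ix_zero], by rw [Nat.sub_self, PL.ix_zero]⟩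

theorem Inn.trans {i j l : ℕ × ℤ × ℤ} (h : Inn i j) (h' : Inn j l) : Inn i l := by
  obtain ⟨a1, a2, a3⟩ := h
  obtain ⟨b1, b2, b3⟩ := h'
  refine ⟨a1.trans b1, ?_, ?_⟩
  · rw [← b2, ← a2, ix_ix]
    congr 1
    omega
  · rw [← b3, ← a3, ix_ix]
    congr 1
    omega

/-- the squares which contain a square form a chain -/
theorem Inn.chain {i j l : ℕ × ℤ × ℤ} (h : Inn i j) (h' : Inn i l) (hjl : j.1 ≤ l.1) :
    Inn j l := by
  obtain ⟨a1, a2, a3⟩ := h
  obtain ⟨b1, b2, b3⟩ := h'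
  refine ⟨hjl, ?_, ?_⟩
  · rw [← a2, ix_ix, ← b2]
    congr 1
    omega
  · rw [← a3, ix_ix, ← b3]
    congr 1
    omega

theorem Inn.eq {i j : ℕ × ℤ × ℤ} (h : Inn i j) (h1 : i.1 = j.1) : i = j := by
  obtain ⟨_, a2, a3⟩ := h
  rw [← h1, Nat.sub_self, PL.ix_zero] at a2 a3
  exact Prod.ext h1 (Prod.ext a2 a3)

variable {N : ℕ} {R S : ℤ} {Q : ℕ → ℤ → ℤ → Prop}

/-- the affected squares which contain `i` -/
def Anc (N : ℕ) (R S : ℤ) (Q : ℕ → ℤ → ℤ → Prop) (i : ℕ × ℤ × ℤ) : Finset (ℕ × ℤ × ℤ) :=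
  (Aff N R S Q).filter fun j => Inn i j

/-- the generation of `i` -/
def gn (N : ℕ) (R S : ℤ) (Q : ℕ → ℤ → ℤ → Prop) (i : ℕ × ℤ × ℤ) : ℕ := (Anc N R S Q i).card

theorem mem_Anc {i j : ℕ × ℤ × ℤ} : j ∈ Anc N R S Q i ↔ j ∈ Aff N R S Q ∧ Inn i j := by
  rw [Anc, mem_filter]

theorem Anc_mono {i j : ℕ × ℤ × ℤ} (h : Inn i j) : Anc N R S Q j ⊆ Anc N R S Q i := by
  intro l hl
  rw [mem_Anc] at hl ⊢
  exact ⟨hl.1, h.trans hl.2⟩

theorem gn_mono {i j : ℕ × ℤ × ℤ} (h : Inn i j) : gn N R S Q j ≤ gn N R S Q i :=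
  card_le_card (Anc_mono h)

/-- **An affected square strictly inside another one has a larger generation.** -/
theorem gn_lt {i j : ℕ × ℤ × ℤ} (hi : i ∈ Aff N R S Q) (h : Inn i j) (hne : i ≠ j) :
    gn N R S Q j < gn N R S Q i := by
  refine card_lt_card ((ssubset_iff_of_subset (Anc_mono h)).2 ⟨i, ?_, ?_⟩)
  · exact mem_Anc.2 ⟨hi, Inn.refl i⟩
  · intro hi'
    obtain ⟨_, h2⟩ := mem_Anc.1 hi'
    exact hne (h.eq (le_antisymm h.1 h2.1))

theorem gn_pos {i : ℕ × ℤ × ℤ} (hi : i ∈ Aff N R S Q) : 1 ≤ gn N R S Q i :=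
  Nat.succ_le_of_lt (card_pos.2 ⟨i, mem_Anc.2 ⟨hi, Inn.refl i⟩⟩)

/-- **One point, one generation: at most one scale.** -/
theorem gen_unique {z x : ℤ} {k l : ℕ} (hk : (k, ix k z, ix k x) ∈ Aff N R S Q)
    (hl : (l, ix l z, ix l x) ∈ Aff N R S Q)
    (h : gn N R S Q (k, ix k z, ix k x) = gn N R S Q (l, ix l z, ix l x)) : k = l := by
  have main : ∀ k l : ℕ, k ≤ l → (k, ix k z, ix k x) ∈ Aff N R S Q →
      gn N R S Q (k, ix k z, ix k x) = gn N R S Q (l, ix l z, ix l x) → k = l := by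
    intro k l hkl hk h
    by_contra hne
    have hin : Inn (k, ix k z, ix k x) (l, ix l z, ix l x) := by
      refine ⟨hkl, ?_, ?_⟩
      · show ix (l - k) (ix k z) = ix l z
        rw [ix_ix]
        congr 1
        omega
      · show ix (l - k) (ix k x) = ix l x
        rw [ix_ix]
        congr 1
        omega
    have h1 := gn_lt hk hin (fun e => hne (congrArg Prod.fst e))
    omega
  rcases le_total k l with h1 | h1
  · exact main k l h1 hk h
  · exact (main l k h1 hl h.symm).symm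

/-- **Every smaller generation is met.** -/
theorem exists_anc {g : ℕ} (hg : 1 ≤ g) : ∀ (d : ℕ) (i : ℕ × ℤ × ℤ), i ∈ Aff N R S Q →
    gn N R S Q i = g + d → ∃ j ∈ Aff N R S Q, Inn i j ∧ gn N R S Q j = g := by
  intro d
  induction d with
  | zero => exact fun i hi h => ⟨i, hi, Inn.refl i, h⟩
  | succ d ih =>
    intro i hi h
    -- the smallest proper ancestor
    have hne : ((Anc N R S Q i).erase i).Nonempty := by
      rw [← card_pos, card_erase_of_mem (mem_Anc.2 ⟨hi, Inn.refl i⟩)]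
      have h2 : (Anc N R S Q i).card = g + (d + 1) := h
      omega
    obtain ⟨j, hj, hmin⟩ := exists_min_image _ (fun j : ℕ × ℤ × ℤ => j.1) hne
    obtain ⟨hji, hj'⟩ := mem_erase.1 hj
    obtain ⟨hjA, hij⟩ := mem_Anc.1 hj'
    have e : Anc N R S Q j = (Anc N R S Q i).erase i := by
      ext l
      rw [mem_erase]
      constructor
      · intro hl
        refine ⟨?_, Anc_mono hij hl⟩
        rintro rfl
        have h3 := (mem_Anc.1 hl).2
        exact hji (h3.eq (le_antisymm h3.1 hij.1))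
      · rintro ⟨hl1, hl2⟩
        have h3 := hmin l (mem_erase.2 ⟨hl1, hl2⟩)
        obtain ⟨h4, h5⟩ := mem_Anc.1 hl2
        exact mem_Anc.2 ⟨h4, hij.chain h5 h3⟩
    have h6 : gn N R S Q j = g + d := by
      unfold gn
      rw [e, card_erase_of_mem (mem_Anc.2 ⟨hi, Inn.refl i⟩)]
      have h2 : (Anc N R S Q i).card = g + (d + 1) := h
      omega
    obtain ⟨l, hl, hjl, hgl⟩ := ih j hjA h6
    exact ⟨l, hl, hij.trans hjl, hgl⟩

/-- the area of the affected squares of generation at least `g` -/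
def tailA (N : ℕ) (R S : ℤ) (Q : ℕ → ℤ → ℤ → Prop) (g : ℕ) : ℝ :=
  ∑ i ∈ (Aff N R S Q).filter fun i => g ≤ gn N R S Q i, (4 : ℝ) ^ i.1

theorem tailA_nonneg (g : ℕ) : 0 ≤ tailA N R S Q g := sum_nonneg fun _ _ => by positivity

/-- packing inside one square, in the letters `Inn` -/
theorem pack_in {B : ℝ} (h : PackQ N R S Q B) {j : ℕ × ℤ × ℤ} (hj : j ∈ Aff N R S Q) :
    ∑ i ∈ (Aff N R S Q).filter (fun i => Inn i j), (4 : ℝ) ^ i.1 ≤ B * 4 ^ j.1 := by
  refine le_trans (le_of_eq ?_) (h j.1 (mem_Aff.1 hj).1.le j.2.1 j.2.2)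
  refine sum_congr ?_ fun _ _ => rfl
  ext i
  rw [mem_filter, mem_filter]
  rfl

/-- **One generation.** -/
theorem tail_step {B : ℝ} (h : PackQ N R S Q B) {g : ℕ} (hg : 1 ≤ g) :
    tailA N R S Q g ≤ B * (tailA N R S Q g - tailA N R S Q (g + 1)) := by
  -- the squares of generation `g`
  set G := (Aff N R S Q).filter fun i => gn N R S Q i = g with hG
  have e1 : tailA N R S Q g - tailA N R S Q (g + 1) = ∑ j ∈ G, (4 : ℝ) ^ j.1 := by
    have e2 : (Aff N R S Q).filter (fun i => g ≤ gn N R S Q i) =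
        G ∪ (Aff N R S Q).filter (fun i => g + 1 ≤ gn N R S Q i) := by
      ext i
      rw [mem_union, hG, mem_filter, mem_filter, mem_filter]
      constructor
      · rintro ⟨a, b⟩
        rcases Nat.eq_or_lt_of_le b with c | c
        · exact Or.inl ⟨a, c.symm⟩
        · exact Or.inr ⟨a, c⟩
      · rintro (⟨a, b⟩ | ⟨a, b⟩)
        · exact ⟨a, b.ge⟩
        · exact ⟨a, by omega⟩
    have e3 : Disjoint G ((Aff N R S Q).filter (fun i => g + 1 ≤ gn N R S Q i)) := by
      rw [disjoint_left]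
      intro i hi hi'
      rw [hG, mem_filter] at hi
      rw [mem_filter] at hi'
      omega
    unfold tailA
    rw [e2, sum_union e3]
    ring
  rw [e1]
  have h1 : tailA N R S Q g ≤
      ∑ j ∈ G, ∑ i ∈ (Aff N R S Q).filter (fun i => Inn i j), (4 : ℝ) ^ i.1 := by
    unfold tailA
    have h2 : (Aff N R S Q).filter (fun i => g ≤ gn N R S Q i) ⊆
        G.biUnion fun j => (Aff N R S Q).filter (fun i => Inn i j) := by
      intro i hi
      obtain ⟨hi1, hi2⟩ := mem_filter.1 hi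
      obtain ⟨j, hj, hij, hgj⟩ := exists_anc (N := N) (R := R) (S := S) (Q := Q) hg
        (gn N R S Q i - g) i hi1 (by omega)
      exact mem_biUnion.2 ⟨j, mem_filter.2 ⟨hj, hgj⟩, mem_filter.2 ⟨hi1, hij⟩⟩
    refine (sum_le_sum_of_subset_of_nonneg h2 fun _ _ _ => by positivity).trans ?_
    rw [sum_biUnion]
    intro j hj l hl hjl
    rw [Function.onFun, disjoint_left]
    intro i hi hi'
    have a1 := (mem_filter.1 hi).2
    have a2 := (mem_filter.1 hi').2
    obtain ⟨b1, b2⟩ := mem_filter.1 hj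
    obtain ⟨c1, c2⟩ := mem_filter.1 hl
    rcases le_total j.1 l.1 with h3 | h3
    · have h4 := gn_lt b1 (a1.chain a2 h3) hjl
      omega
    · have h4 := gn_lt c1 (a2.chain a1 h3) (Ne.symm hjl)
      omega
  refine h1.trans ?_
  rw [mul_sum]
  exact sum_le_sum fun j hj => pack_in h (mem_filter.1 hj).1

/-- the first generation -/
theorem tail_one {B : ℝ} (h : PackQ N R S Q B) : tailA N R S Q 1 ≤ B * 4 ^ N := by
  refine le_trans ?_ (h N le_rfl R S)
  refine sum_le_sum_of_subset_of_nonneg ?_ fun _ _ _ => by positivity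
  intro i hi
  have hi1 := (mem_filter.1 hi).1
  obtain ⟨a1, a2, a3, _⟩ := mem_Aff.1 hi1
  exact mem_filter.2 ⟨hi1, a1.le, mem_iv.1 a2, mem_iv.1 a3⟩

/-- **The tail of the generations**: `B (1 - 1 / B) ^ lam 4 ^ N`. -/
theorem tail_le {B : ℝ} (hB : 1 ≤ B) (h : PackQ N R S Q B) (lam : ℕ) :
    tailA N R S Q (lam + 1) ≤ B * (1 - B⁻¹) ^ lam * 4 ^ N := by
  have hB0 : 0 < B := by linarith
  have hq : 0 ≤ 1 - B⁻¹ := by
    have := inv_le_one_of_one_le₀ hB
    linarith
  induction lam with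
  | zero => simpa using tail_one h
  | succ lam ih =>
    have h1 := tail_step h (g := lam + 1) (by omega)
    have h2 : tailA N R S Q (lam + 1 + 1) ≤ (1 - B⁻¹) * tailA N R S Q (lam + 1) := by
      have h3 : B⁻¹ * tailA N R S Q (lam + 1) ≤
          tailA N R S Q (lam + 1) - tailA N R S Q (lam + 1 + 1) := by
        rw [inv_mul_le_iff₀ hB0]
        exact h1
      linarith
    refine h2.trans ((mul_le_mul_of_nonneg_left ih hq).trans (le_of_eq ?_))
    rw [pow_succ]
    ring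

/-- **The affected squares of large generation.** -/
theorem pack_gen {B : ℝ} (hB : 1 ≤ B) (h : PackQ N R S Q B) (lam : ℕ) :
    ∑ k ∈ range N, ∑ m ∈ iv (N - k) S, ∑ n ∈ iv (N - k) R,
      (if Q k n m ∧ lam < gn N R S Q (k, n, m) then (4 : ℝ) ^ k else 0) ≤
      B * (1 - B⁻¹) ^ lam * 4 ^ N := by
  refine le_trans (le_of_eq ?_) (tail_le hB h lam)
  unfold tailA
  rw [sum_filter, sum_Aff]
  refine sum_congr rfl fun k _ => sum_congr rfl fun m _ => sum_congr rfl fun n _ => ?_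
  by_cases h1 : Q k n m
  · simp only [h1, true_and, if_true]
    rfl
  · simp only [h1, false_and, if_false]

/-- `(1 - 1 / B) ^ lam ≤ exp (- lam / B)` -/
theorem geo_exp {B : ℝ} (hB : 1 ≤ B) (lam : ℕ) : (1 - B⁻¹) ^ lam ≤ Real.exp (-(lam / B)) := by
  have hq : 0 ≤ 1 - B⁻¹ := by
    have := inv_le_one_of_one_le₀ hB
    linarith
  have h1 : 1 - B⁻¹ ≤ Real.exp (-B⁻¹) := by
    have := Real.add_one_le_exp (-B⁻¹)
    linarith
  refine (pow_le_pow_left₀ hq h1 lam).trans (le_of_eq ?_)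
  rw [← Real.exp_nat_mul]
  congr 1
  rw [div_eq_mul_inv]
  ring

end

end Vale.Agent.P141.H268
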